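import Mathlib

/-!
# ROW 252, unit HEIS (BP-252-HEIS): the Heisenberg commutator algebra of 07 l.1158-1220            CONTRACT (architect helper169)

PAPER-FREE calculus on `ℝ³ = Fin 3 → ℝ`, coordinates `q 0 = t`, `q 1 = Z`, `q 2 = Y`.   Prefix `hsb_`.
Vector fields `𝒳 = ∂_t - Z ∂_Y`, `𝒵 = ∂_Z + t ∂_Y`, `𝒯 = [𝒳, 𝒵] = 2 ∂_Y`; a vector field `V` acts by `hsb_D V g q = fderiv ℝ g q (V q)`.
All functions are total; smoothness and identities are ON AN OPEN SET `U` (the sheets of unit SHEET live on the set where the discriminant is stable).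
With `A = 𝒳²f`, `B = 𝒵²f`, `C = (𝒳𝒵 + 𝒵𝒳) f`:
  `3 𝒯𝒳 f = 𝒳 C - 2 𝒵 A`,   `-3 𝒯𝒵 f = 𝒵 C - 2 𝒳 B`,   `3 𝒯² f = 2 𝒳² B + 2 𝒵² A - (𝒳𝒵 + 𝒵𝒳) C`,
and `𝒳(q), 𝒵(q), 𝒯` is a basis of `ℝ³`, so the whole Hessian of `f` at `q` is bounded by `4 K² E` (`|q| ≤ K`; EXIT `hsb_hessian`).
EXIT 2 `hsb_hessian_dir`: the same with the hypotheses on `A, B, C` written as derivatives along straight lines (the form in which unit SHEET delivers them).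
Leaves `L-252-HEIS-*`: prove IN PLACE, statements verbatim, earlier statements are black boxes; helper lemmas `hsb_*` just above your theorem.
-/

set_option autoImplicit false

namespace Claimed.Agent.R252

noncomputable section

/-- the action of a vector field on a function -/
def hsb_D (V : (Fin 3 → ℝ) → (Fin 3 → ℝ)) (g : (Fin 3 → ℝ) → ℝ) : (Fin 3 → ℝ) → ℝ := fun q => fderiv ℝ g q (V q)

/-- `𝒳 = ∂_t - Z ∂_Y` -/
def hsb_vX (q : Fin 3 → ℝ) : Fin 3 → ℝ := ![1, 0, -q 1]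

/-- `𝒵 = ∂_Z + t ∂_Y` -/
def hsb_vZ (q : Fin 3 → ℝ) : Fin 3 → ℝ := ![0, 1, q 0]

/-- `𝒯 = 2 ∂_Y` -/
def hsb_vT (_q : Fin 3 → ℝ) : Fin 3 → ℝ := ![0, 0, 2]

/-- `𝒳 g` -/
def hsb_X (g : (Fin 3 → ℝ) → ℝ) : (Fin 3 → ℝ) → ℝ := hsb_D hsb_vX g

/-- `𝒵 g` -/
def hsb_Z (g : (Fin 3 → ℝ) → ℝ) : (Fin 3 → ℝ) → ℝ := hsb_D hsb_vZ g

/-- `𝒯 g` -/
def hsb_T (g : (Fin 3 → ℝ) → ℝ) : (Fin 3 → ℝ) → ℝ := hsb_D hsb_vT g

/-- `A = 𝒳² f` -/
def hsb_A (f : (Fin 3 → ℝ) → ℝ) : (Fin 3 → ℝ) → ℝ := hsb_X (hsb_X f)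

/-- `B = 𝒵² f` -/
def hsb_B (f : (Fin 3 → ℝ) → ℝ) : (Fin 3 → ℝ) → ℝ := hsb_Z (hsb_Z f)

/-- `C = (𝒳𝒵 + 𝒵𝒳) f` -/
def hsb_C (f : (Fin 3 → ℝ) → ℝ) : (Fin 3 → ℝ) → ℝ := fun q => hsb_X (hsb_Z f) q + hsb_Z (hsb_X f) q

/-- the Hessian -/
def hsb_H (f : (Fin 3 → ℝ) → ℝ) (q u w : Fin 3 → ℝ) : ℝ := fderiv ℝ (fderiv ℝ f) q u w

/-! ## 1. Calculus of vector fields      (leaf L-252-HEIS-1) -/

theorem hsb_vX_contDiff : ContDiff ℝ ⊤ hsb_vX := by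
  rw [contDiff_pi]
  intro i
  fin_cases i
  · exact contDiff_const (c := (1 : ℝ))
  · exact contDiff_const (c := (0 : ℝ))
  · exact (contDiff_apply ℝ ℝ (1 : Fin 3)).neg

theorem hsb_vZ_contDiff : ContDiff ℝ ⊤ hsb_vZ := by
  rw [contDiff_pi]
  intro i
  fin_cases i
  · exact contDiff_const (c := (0 : ℝ))
  · exact contDiff_const (c := (1 : ℝ))
  · exact contDiff_apply ℝ ℝ (0 : Fin 3)

theorem hsb_vT_contDiff : ContDiff ℝ ⊤ hsb_vT := by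
  exact contDiff_const

theorem hsb_hasFDerivAt_vX (q : Fin 3 → ℝ) :
    HasFDerivAt hsb_vX (ContinuousLinearMap.pi ![0, 0, -(ContinuousLinearMap.proj 1 : (Fin 3 → ℝ) →L[ℝ] ℝ)]) q := by
  refine hasFDerivAt_pi'.2 fun i => ?_
  fin_cases i
  · exact hasFDerivAt_const (1 : ℝ) q
  · exact hasFDerivAt_const (0 : ℝ) q
  · exact (hasFDerivAt_apply (1 : Fin 3) q).neg

theorem hsb_fderiv_vX (q w : Fin 3 → ℝ) : fderiv ℝ hsb_vX q w = ![0, 0, -w 1] := by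
  rw [(hsb_hasFDerivAt_vX q).fderiv]
  ext i
  fin_cases i <;> simp

theorem hsb_hasFDerivAt_vZ (q : Fin 3 → ℝ) :
    HasFDerivAt hsb_vZ (ContinuousLinearMap.pi ![0, 0, (ContinuousLinearMap.proj 0 : (Fin 3 → ℝ) →L[ℝ] ℝ)]) q := by
  refine hasFDerivAt_pi'.2 fun i => ?_
  fin_cases i
  · exact hasFDerivAt_const (0 : ℝ) q
  · exact hasFDerivAt_const (1 : ℝ) q
  · exact hasFDerivAt_apply (0 : Fin 3) q

theorem hsb_fderiv_vZ (q w : Fin 3 → ℝ) : fderiv ℝ hsb_vZ q w = ![0, 0, w 0] := by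
  rw [(hsb_hasFDerivAt_vZ q).fderiv]
  ext i
  fin_cases i <;> simp

theorem hsb_fderiv_vT (q w : Fin 3 → ℝ) : fderiv ℝ hsb_vT q w = 0 := by
  have h : HasFDerivAt hsb_vT (0 : (Fin 3 → ℝ) →L[ℝ] (Fin 3 → ℝ)) q := hasFDerivAt_const _ q
  rw [h.fderiv]
  rfl

/-- one derivative is lost (`ContDiffOn.fderiv_of_isOpen`, `ContDiffOn.clm_apply`) -/
theorem hsb_D_contDiffOn {U : Set (Fin 3 → ℝ)} (hU : IsOpen U) {V : (Fin 3 → ℝ) → (Fin 3 → ℝ)} (hV : ContDiff ℝ ⊤ V) {g : (Fin 3 → ℝ) → ℝ} (k : ℕ)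
    (hg : ContDiffOn ℝ ((k + 1 : ℕ) : WithTop ℕ∞) g U) : ContDiffOn ℝ ((k : ℕ) : WithTop ℕ∞) (hsb_D V g) U := by
  have h1 : ContDiffOn ℝ ((k : ℕ) : WithTop ℕ∞) (fderiv ℝ g) U := hg.fderiv_of_isOpen hU (by norm_cast)
  exact h1.clm_apply (hV.contDiffOn.of_le le_top)

/-- locality (`Filter.EventuallyEq.fderiv_eq`) -/
theorem hsb_D_congr {U : Set (Fin 3 → ℝ)} (hU : IsOpen U) (V : (Fin 3 → ℝ) → (Fin 3 → ℝ)) {g h : (Fin 3 → ℝ) → ℝ} (hgh : Set.EqOn g h U) :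
    Set.EqOn (hsb_D V g) (hsb_D V h) U := by
  intro q hq
  unfold hsb_D
  rw [Filter.EventuallyEq.fderiv_eq (hgh.eventuallyEq_of_mem (hU.mem_nhds hq))]

/-- linearity -/
theorem hsb_D_lin {U : Set (Fin 3 → ℝ)} (hU : IsOpen U) (V : (Fin 3 → ℝ) → (Fin 3 → ℝ)) {g h : (Fin 3 → ℝ) → ℝ} (a b : ℝ)
    (hg : DifferentiableOn ℝ g U) (hh : DifferentiableOn ℝ h U) :
    Set.EqOn (hsb_D V fun q => a * g q + b * h q) (fun q => a * hsb_D V g q + b * hsb_D V h q) U := by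
  intro q hq
  have hg' : HasFDerivAt g (fderiv ℝ g q) q := ((hg q hq).differentiableAt (hU.mem_nhds hq)).hasFDerivAt
  have hh' : HasFDerivAt h (fderiv ℝ h q) q := ((hh q hq).differentiableAt (hU.mem_nhds hq)).hasFDerivAt
  have e : fderiv ℝ (fun q => a * g q + b * h q) q = a • fderiv ℝ g q + b • fderiv ℝ h q :=
    ((hg'.const_mul a).add (hh'.const_mul b)).fderiv
  show fderiv ℝ (fun q => a * g q + b * h q) q (V q) = a * fderiv ℝ g q (V q) + b * fderiv ℝ h q (V q)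
  rw [e]
  simp

/-- **second order**: `V W g = D²g (V, W) + Dg (W' V)`   (`HasFDerivAt.clm_apply`) -/
theorem hsb_DD {U : Set (Fin 3 → ℝ)} (hU : IsOpen U) {V W : (Fin 3 → ℝ) → (Fin 3 → ℝ)} (hW : ContDiff ℝ ⊤ W) {g : (Fin 3 → ℝ) → ℝ}
    (hg : ContDiffOn ℝ 2 g U) {q : Fin 3 → ℝ} (hq : q ∈ U) :
    hsb_D V (hsb_D W g) q = hsb_H g q (V q) (W q) + fderiv ℝ g q (fderiv ℝ W q (V q)) := by
  have h1 : DifferentiableAt ℝ (fderiv ℝ g) q :=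
    (((hg.fderiv_of_isOpen hU (m := 1) (by norm_num)).differentiableOn (by norm_num)) q hq).differentiableAt (hU.mem_nhds hq)
  have h2 : DifferentiableAt ℝ W q := (hW.differentiable (by simp)) q
  have e := (h1.hasFDerivAt.clm_apply h2.hasFDerivAt).fderiv
  show fderiv ℝ (fun x => fderiv ℝ g x (W x)) q (V q) = fderiv ℝ (fderiv ℝ g) q (V q) (W q) + fderiv ℝ g q (fderiv ℝ W q (V q))
  rw [e]
  simp [add_comm]

theorem hsb_cd_step {U : Set (Fin 3 → ℝ)} (hU : IsOpen U) {V : (Fin 3 → ℝ) → (Fin 3 → ℝ)} (hV : ContDiff ℝ ⊤ V) {g : (Fin 3 → ℝ) → ℝ} :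
    (ContDiffOn ℝ 4 g U → ContDiffOn ℝ 3 (hsb_D V g) U) ∧ (ContDiffOn ℝ 3 g U → ContDiffOn ℝ 2 (hsb_D V g) U) ∧
    (ContDiffOn ℝ 2 g U → ContDiffOn ℝ 1 (hsb_D V g) U) := by
  refine ⟨fun h => ?_, fun h => ?_, fun h => ?_⟩
  · exact_mod_cast hsb_D_contDiffOn hU hV 3 (by exact_mod_cast h)
  · exact_mod_cast hsb_D_contDiffOn hU hV 2 (by exact_mod_cast h)
  · exact_mod_cast hsb_D_contDiffOn hU hV 1 (by exact_mod_cast h)

/-- a field applied to a function which is a linear combination on `U` -/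
theorem hsb_D_lin_at {U : Set (Fin 3 → ℝ)} (hU : IsOpen U) (V : (Fin 3 → ℝ) → (Fin 3 → ℝ)) {F g h : (Fin 3 → ℝ) → ℝ} (a b : ℝ)
    (hF : Set.EqOn F (fun q => a * g q + b * h q) U) (hg : DifferentiableOn ℝ g U) (hh : DifferentiableOn ℝ h U)
    {q : Fin 3 → ℝ} (hq : q ∈ U) : hsb_D V F q = a * hsb_D V g q + b * hsb_D V h q :=
  (hsb_D_congr hU V hF hq).trans (hsb_D_lin hU V a b hg hh hq)

theorem hsb_C_contDiffOn {U : Set (Fin 3 → ℝ)} (hU : IsOpen U) {f : (Fin 3 → ℝ) → ℝ} :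
    (ContDiffOn ℝ 4 f U → ContDiffOn ℝ 2 (hsb_C f) U) ∧ (ContDiffOn ℝ 3 f U → ContDiffOn ℝ 1 (hsb_C f) U) := by
  constructor
  · intro hf
    exact ((hsb_cd_step hU hsb_vX_contDiff).2.1 ((hsb_cd_step hU hsb_vZ_contDiff).1 hf)).add
      ((hsb_cd_step hU hsb_vZ_contDiff).2.1 ((hsb_cd_step hU hsb_vX_contDiff).1 hf))
  · intro hf
    exact ((hsb_cd_step hU hsb_vX_contDiff).2.2 ((hsb_cd_step hU hsb_vZ_contDiff).2.1 hf)).add
      ((hsb_cd_step hU hsb_vZ_contDiff).2.2 ((hsb_cd_step hU hsb_vX_contDiff).2.1 hf))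

/-- symmetry of the Hessian (`ContDiffAt.isSymmSndFDerivAt`) -/
theorem hsb_H_symm {U : Set (Fin 3 → ℝ)} (hU : IsOpen U) {g : (Fin 3 → ℝ) → ℝ} (hg : ContDiffOn ℝ 2 g U) {q : Fin 3 → ℝ} (hq : q ∈ U)
    (u w : Fin 3 → ℝ) : hsb_H g q u w = hsb_H g q w u := by
  exact (hg.contDiffAt (hU.mem_nhds hq)).isSymmSndFDerivAt (by simp) u w

/-! ## 2. Commutators      (leaf L-252-HEIS-2; from `hsb_DD`, `hsb_H_symm`, `hsb_fderiv_v*`) -/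

theorem hsb_comm_XZ {U : Set (Fin 3 → ℝ)} (hU : IsOpen U) {g : (Fin 3 → ℝ) → ℝ} (hg : ContDiffOn ℝ 2 g U) :
    Set.EqOn (hsb_X (hsb_Z g)) (fun q => hsb_Z (hsb_X g) q + hsb_T g q) U := by
  intro q hq
  show hsb_D hsb_vX (hsb_D hsb_vZ g) q = hsb_D hsb_vZ (hsb_D hsb_vX g) q + fderiv ℝ g q (hsb_vT q)
  rw [hsb_DD hU hsb_vZ_contDiff hg hq, hsb_DD hU hsb_vX_contDiff hg hq, hsb_H_symm hU hg hq (hsb_vX q) (hsb_vZ q), add_assoc, ← map_add,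
    hsb_fderiv_vZ, hsb_fderiv_vX]
  congr 2
  ext i
  fin_cases i <;> simp [hsb_vX, hsb_vZ, hsb_vT]
  norm_num

theorem hsb_comm_TX {U : Set (Fin 3 → ℝ)} (hU : IsOpen U) {g : (Fin 3 → ℝ) → ℝ} (hg : ContDiffOn ℝ 2 g U) :
    Set.EqOn (hsb_T (hsb_X g)) (hsb_X (hsb_T g)) U := by
  intro q hq
  show hsb_D hsb_vT (hsb_D hsb_vX g) q = hsb_D hsb_vX (hsb_D hsb_vT g) q
  rw [hsb_DD hU hsb_vX_contDiff hg hq, hsb_DD hU hsb_vT_contDiff hg hq, hsb_H_symm hU hg hq (hsb_vT q) (hsb_vX q),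
    hsb_fderiv_vX, hsb_fderiv_vT]
  congr 2
  ext i
  fin_cases i <;> simp [hsb_vT]

theorem hsb_comm_TZ {U : Set (Fin 3 → ℝ)} (hU : IsOpen U) {g : (Fin 3 → ℝ) → ℝ} (hg : ContDiffOn ℝ 2 g U) :
    Set.EqOn (hsb_T (hsb_Z g)) (hsb_Z (hsb_T g)) U := by
  intro q hq
  show hsb_D hsb_vT (hsb_D hsb_vZ g) q = hsb_D hsb_vZ (hsb_D hsb_vT g) q
  rw [hsb_DD hU hsb_vZ_contDiff hg hq, hsb_DD hU hsb_vT_contDiff hg hq, hsb_H_symm hU hg hq (hsb_vT q) (hsb_vZ q),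
    hsb_fderiv_vZ, hsb_fderiv_vT]
  congr 2
  ext i
  fin_cases i <;> simp [hsb_vT]

/-! ## 3. The identities of third and fourth order      (leaf L-252-HEIS-3)
Operator algebra: `XZ = ZX + T` applied to `g = f, Xf, Zf`; apply `X`, `Z` to an identity on `U` with `hsb_D_congr`, `hsb_D_lin`; smoothness with `hsb_D_contDiffOn`.
`XXZ = ZXX + 2TX`, `XZX = ZXX + TX`;   `ZXZ = XZZ - TZ`, `ZZX = XZZ - 2TZ`;   `T² = T(XZ - ZX) = XTZ - ZTX`. -/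

theorem hsb_TX {U : Set (Fin 3 → ℝ)} (hU : IsOpen U) {f : (Fin 3 → ℝ) → ℝ} (hf : ContDiffOn ℝ 3 f U) :
    Set.EqOn (fun q => 3 * hsb_T (hsb_X f) q) (fun q => hsb_X (hsb_C f) q - 2 * hsb_Z (hsb_A f) q) U := by
  intro q hq
  have f2 : ContDiffOn ℝ 2 f U := hf.of_le (by norm_num)
  have cX : ContDiffOn ℝ 2 (hsb_X f) U := (hsb_cd_step hU hsb_vX_contDiff).2.1 hf
  have cZ : ContDiffOn ℝ 2 (hsb_Z f) U := (hsb_cd_step hU hsb_vZ_contDiff).2.1 hf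
  have cT : ContDiffOn ℝ 2 (hsb_T f) U := (hsb_cd_step hU hsb_vT_contDiff).2.1 hf
  have dXZ : DifferentiableOn ℝ (hsb_X (hsb_Z f)) U := ((hsb_cd_step hU hsb_vX_contDiff).2.2 cZ).differentiableOn (by norm_num)
  have dZX : DifferentiableOn ℝ (hsb_Z (hsb_X f)) U := ((hsb_cd_step hU hsb_vZ_contDiff).2.2 cX).differentiableOn (by norm_num)
  have dT : DifferentiableOn ℝ (hsb_T f) U := cT.differentiableOn (by norm_num)
  have e1 : hsb_X (hsb_Z (hsb_X f)) q = hsb_Z (hsb_X (hsb_X f)) q + hsb_T (hsb_X f) q := hsb_comm_XZ hU cX hq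
  have e2 : hsb_X (hsb_X (hsb_Z f)) q = 1 * hsb_X (hsb_Z (hsb_X f)) q + 1 * hsb_X (hsb_T f) q :=
    hsb_D_lin_at hU hsb_vX 1 1 (fun p hp => by rw [hsb_comm_XZ hU f2 hp]; ring) dZX dT hq
  have e3 : hsb_T (hsb_X f) q = hsb_X (hsb_T f) q := hsb_comm_TX hU f2 hq
  have e4 : hsb_X (hsb_C f) q = 1 * hsb_X (hsb_X (hsb_Z f)) q + 1 * hsb_X (hsb_Z (hsb_X f)) q :=
    hsb_D_lin_at hU hsb_vX 1 1 (fun p _ => by simp [hsb_C]) dXZ dZX hq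
  show 3 * hsb_T (hsb_X f) q = hsb_X (hsb_C f) q - 2 * hsb_Z (hsb_X (hsb_X f)) q
  linarith

theorem hsb_TZ {U : Set (Fin 3 → ℝ)} (hU : IsOpen U) {f : (Fin 3 → ℝ) → ℝ} (hf : ContDiffOn ℝ 3 f U) :
    Set.EqOn (fun q => -3 * hsb_T (hsb_Z f) q) (fun q => hsb_Z (hsb_C f) q - 2 * hsb_X (hsb_B f) q) U := by
  intro q hq
  have f2 : ContDiffOn ℝ 2 f U := hf.of_le (by norm_num)
  have cX : ContDiffOn ℝ 2 (hsb_X f) U := (hsb_cd_step hU hsb_vX_contDiff).2.1 hf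
  have cZ : ContDiffOn ℝ 2 (hsb_Z f) U := (hsb_cd_step hU hsb_vZ_contDiff).2.1 hf
  have cT : ContDiffOn ℝ 2 (hsb_T f) U := (hsb_cd_step hU hsb_vT_contDiff).2.1 hf
  have dXZ : DifferentiableOn ℝ (hsb_X (hsb_Z f)) U := ((hsb_cd_step hU hsb_vX_contDiff).2.2 cZ).differentiableOn (by norm_num)
  have dZX : DifferentiableOn ℝ (hsb_Z (hsb_X f)) U := ((hsb_cd_step hU hsb_vZ_contDiff).2.2 cX).differentiableOn (by norm_num)
  have dT : DifferentiableOn ℝ (hsb_T f) U := cT.differentiableOn (by norm_num)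
  have e1 : hsb_X (hsb_Z (hsb_Z f)) q = hsb_Z (hsb_X (hsb_Z f)) q + hsb_T (hsb_Z f) q := hsb_comm_XZ hU cZ hq
  have e2 : hsb_Z (hsb_Z (hsb_X f)) q = 1 * hsb_Z (hsb_X (hsb_Z f)) q + (-1) * hsb_Z (hsb_T f) q :=
    hsb_D_lin_at hU hsb_vZ 1 (-1) (fun p hp => by
      have := hsb_comm_XZ hU f2 hp
      simp only at this ⊢
      rw [this]; ring) dXZ dT hq
  have e3 : hsb_T (hsb_Z f) q = hsb_Z (hsb_T f) q := hsb_comm_TZ hU f2 hq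
  have e4 : hsb_Z (hsb_C f) q = 1 * hsb_Z (hsb_X (hsb_Z f)) q + 1 * hsb_Z (hsb_Z (hsb_X f)) q :=
    hsb_D_lin_at hU hsb_vZ 1 1 (fun p _ => by simp [hsb_C]) dXZ dZX hq
  show -3 * hsb_T (hsb_Z f) q = hsb_Z (hsb_C f) q - 2 * hsb_X (hsb_Z (hsb_Z f)) q
  linarith

theorem hsb_TT {U : Set (Fin 3 → ℝ)} (hU : IsOpen U) {f : (Fin 3 → ℝ) → ℝ} (hf : ContDiffOn ℝ 4 f U) :
    Set.EqOn (fun q => 3 * hsb_T (hsb_T f) q)
      (fun q => 2 * hsb_X (hsb_X (hsb_B f)) q + 2 * hsb_Z (hsb_Z (hsb_A f)) q - hsb_C (hsb_C f) q) U := by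
  intro q hq
  have f3 : ContDiffOn ℝ 3 f U := hf.of_le (by norm_num)
  have f2 : ContDiffOn ℝ 2 f U := hf.of_le (by norm_num)
  have cX : ContDiffOn ℝ 3 (hsb_X f) U := (hsb_cd_step hU hsb_vX_contDiff).1 hf
  have cZ : ContDiffOn ℝ 3 (hsb_Z f) U := (hsb_cd_step hU hsb_vZ_contDiff).1 hf
  have cXZ : ContDiffOn ℝ 2 (hsb_X (hsb_Z f)) U := (hsb_cd_step hU hsb_vX_contDiff).2.1 cZ
  have cZX : ContDiffOn ℝ 2 (hsb_Z (hsb_X f)) U := (hsb_cd_step hU hsb_vZ_contDiff).2.1 cX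
  have cA : ContDiffOn ℝ 2 (hsb_A f) U := (hsb_cd_step hU hsb_vX_contDiff).2.1 cX
  have cB : ContDiffOn ℝ 2 (hsb_B f) U := (hsb_cd_step hU hsb_vZ_contDiff).2.1 cZ
  have cC : ContDiffOn ℝ 2 (hsb_C f) U := (hsb_C_contDiffOn hU).1 hf
  have dTZ : DifferentiableOn ℝ (hsb_T (hsb_Z f)) U := ((hsb_cd_step hU hsb_vT_contDiff).2.1 cZ).differentiableOn (by norm_num)
  have dTX : DifferentiableOn ℝ (hsb_T (hsb_X f)) U := ((hsb_cd_step hU hsb_vT_contDiff).2.1 cX).differentiableOn (by norm_num)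
  have dZC : DifferentiableOn ℝ (hsb_Z (hsb_C f)) U := ((hsb_cd_step hU hsb_vZ_contDiff).2.2 cC).differentiableOn (by norm_num)
  have dXC : DifferentiableOn ℝ (hsb_X (hsb_C f)) U := ((hsb_cd_step hU hsb_vX_contDiff).2.2 cC).differentiableOn (by norm_num)
  have dXB : DifferentiableOn ℝ (hsb_X (hsb_B f)) U := ((hsb_cd_step hU hsb_vX_contDiff).2.2 cB).differentiableOn (by norm_num)
  have dZA : DifferentiableOn ℝ (hsb_Z (hsb_A f)) U := ((hsb_cd_step hU hsb_vZ_contDiff).2.2 cA).differentiableOn (by norm_num)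
  -- `T T f = T X Z f - T Z X f`
  have e1 : hsb_T (hsb_T f) q = 1 * hsb_T (hsb_X (hsb_Z f)) q + (-1) * hsb_T (hsb_Z (hsb_X f)) q :=
    hsb_D_lin_at hU hsb_vT 1 (-1) (fun p hp => by
      have := hsb_comm_XZ hU f2 hp
      simp only at this ⊢
      rw [this]; ring)
      (cXZ.differentiableOn (by norm_num)) (cZX.differentiableOn (by norm_num)) hq
  have e2 : hsb_T (hsb_X (hsb_Z f)) q = hsb_X (hsb_T (hsb_Z f)) q := hsb_comm_TX hU (cZ.of_le (by norm_num)) hq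
  have e3 : hsb_T (hsb_Z (hsb_X f)) q = hsb_Z (hsb_T (hsb_X f)) q := hsb_comm_TZ hU (cX.of_le (by norm_num)) hq
  -- `X` applied to `-3 T Z f = Z C - 2 X B`
  have e4 : hsb_X (fun p => -3 * hsb_T (hsb_Z f) p) q = (-3) * hsb_X (hsb_T (hsb_Z f)) q + 0 * hsb_X (hsb_T (hsb_Z f)) q :=
    hsb_D_lin_at hU hsb_vX (-3) 0 (fun p _ => by ring) dTZ dTZ hq
  have e5 : hsb_X (fun p => -3 * hsb_T (hsb_Z f) p) q = 1 * hsb_X (hsb_Z (hsb_C f)) q + (-2) * hsb_X (hsb_X (hsb_B f)) q :=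
    hsb_D_lin_at hU hsb_vX 1 (-2) (fun p hp => by
      have := hsb_TZ hU f3 hp
      simp only at this
      rw [this]; ring) dZC dXB hq
  -- `Z` applied to `3 T X f = X C - 2 Z A`
  have e6 : hsb_Z (fun p => 3 * hsb_T (hsb_X f) p) q = 3 * hsb_Z (hsb_T (hsb_X f)) q + 0 * hsb_Z (hsb_T (hsb_X f)) q :=
    hsb_D_lin_at hU hsb_vZ 3 0 (fun p _ => by ring) dTX dTX hq
  have e7 : hsb_Z (fun p => 3 * hsb_T (hsb_X f) p) q = 1 * hsb_Z (hsb_X (hsb_C f)) q + (-2) * hsb_Z (hsb_Z (hsb_A f)) q :=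
    hsb_D_lin_at hU hsb_vZ 1 (-2) (fun p hp => by
      have := hsb_TX hU f3 hp
      simp only at this
      rw [this]; ring) dXC dZA hq
  show 3 * hsb_T (hsb_T f) q = 2 * hsb_X (hsb_X (hsb_B f)) q + 2 * hsb_Z (hsb_Z (hsb_A f)) q
    - (hsb_X (hsb_Z (hsb_C f)) q + hsb_Z (hsb_X (hsb_C f)) q)
  linarith

/-! ## 4. The six Hessian formulas and the bound      (leaf L-252-HEIS-4) -/

/-- the six formulas, in invariant form (`hsb_DD`; the first order terms vanish or cancel) -/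
theorem hsb_six {U : Set (Fin 3 → ℝ)} (hU : IsOpen U) {f : (Fin 3 → ℝ) → ℝ} (hf : ContDiffOn ℝ 2 f U) {q : Fin 3 → ℝ} (hq : q ∈ U) :
    hsb_T (hsb_T f) q = hsb_H f q (hsb_vT q) (hsb_vT q) ∧ hsb_T (hsb_X f) q = hsb_H f q (hsb_vT q) (hsb_vX q) ∧
    hsb_T (hsb_Z f) q = hsb_H f q (hsb_vT q) (hsb_vZ q) ∧ hsb_A f q = hsb_H f q (hsb_vX q) (hsb_vX q) ∧
    hsb_B f q = hsb_H f q (hsb_vZ q) (hsb_vZ q) ∧ hsb_C f q = 2 * hsb_H f q (hsb_vX q) (hsb_vZ q) := by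
  have z3 : (![0, 0, 0] : Fin 3 → ℝ) = 0 := by
    ext i; fin_cases i <;> rfl
  refine ⟨?_, ?_, ?_, ?_, ?_, ?_⟩
  · have h := hsb_DD hU (V := hsb_vT) hsb_vT_contDiff hf hq
    rw [hsb_fderiv_vT, map_zero, add_zero] at h
    exact h
  · have h := hsb_DD hU (V := hsb_vT) hsb_vX_contDiff hf hq
    have e : (![0, 0, -(hsb_vT q) 1] : Fin 3 → ℝ) = 0 := by
      rw [← z3]; simp [hsb_vT]
    rw [hsb_fderiv_vX, e, map_zero, add_zero] at h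
    exact h
  · have h := hsb_DD hU (V := hsb_vT) hsb_vZ_contDiff hf hq
    have e : (![0, 0, (hsb_vT q) 0] : Fin 3 → ℝ) = 0 := by
      rw [← z3]; simp [hsb_vT]
    rw [hsb_fderiv_vZ, e, map_zero, add_zero] at h
    exact h
  · have h := hsb_DD hU (V := hsb_vX) hsb_vX_contDiff hf hq
    have e : (![0, 0, -(hsb_vX q) 1] : Fin 3 → ℝ) = 0 := by
      rw [← z3]; simp [hsb_vX]
    rw [hsb_fderiv_vX, e, map_zero, add_zero] at h
    exact h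
  · have h := hsb_DD hU (V := hsb_vZ) hsb_vZ_contDiff hf hq
    have e : (![0, 0, (hsb_vZ q) 0] : Fin 3 → ℝ) = 0 := by
      rw [← z3]; simp [hsb_vZ]
    rw [hsb_fderiv_vZ, e, map_zero, add_zero] at h
    exact h
  · have h1 := hsb_DD hU (V := hsb_vX) hsb_vZ_contDiff hf hq
    have h2 := hsb_DD hU (V := hsb_vZ) hsb_vX_contDiff hf hq
    rw [hsb_fderiv_vZ] at h1
    rw [hsb_fderiv_vX] at h2
    have e : (![0, 0, -(hsb_vZ q) 1] : Fin 3 → ℝ) = -![0, 0, (hsb_vX q) 0] := by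
      ext i; fin_cases i <;> simp [hsb_vX, hsb_vZ]
    rw [e, map_neg, hsb_H_symm hU hf hq (hsb_vZ q) (hsb_vX q)] at h2
    show hsb_D hsb_vX (hsb_D hsb_vZ f) q + hsb_D hsb_vZ (hsb_D hsb_vX f) q = _
    rw [h1, h2]
    ring

/-- the coordinates in the frame -/
theorem hsb_frame_dec (q u : Fin 3 → ℝ) :
    u = u 0 • hsb_vX q + u 1 • hsb_vZ q + ((u 2 + u 0 * q 1 - u 1 * q 0) / 2) • hsb_vT q := by
  ext i
  fin_cases i
  · simp [hsb_vX, hsb_vZ, hsb_vT]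
  · simp [hsb_vX, hsb_vZ, hsb_vT]
  · simp [hsb_vX, hsb_vZ, hsb_vT]

theorem hsb_frame_coef (q u : Fin 3 → ℝ) (K : ℝ) (hK : 1 ≤ K) (hq : ‖q‖ ≤ K) :
    |u 0| + |u 1| + |(u 2 + u 0 * q 1 - u 1 * q 0) / 2| ≤ 4 * K * ‖u‖ := by
  have hu : ∀ i, |u i| ≤ ‖u‖ := fun i => by
    have := norm_le_pi_norm u i
    rwa [Real.norm_eq_abs] at this
  have hqi : ∀ i, |q i| ≤ K := fun i => by
    have := norm_le_pi_norm q i
    rw [Real.norm_eq_abs] at this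
    exact this.trans hq
  have hn : 0 ≤ ‖u‖ := norm_nonneg u
  have h1 : |u 0 * q 1| ≤ ‖u‖ * K := by
    rw [abs_mul]; exact mul_le_mul (hu 0) (hqi 1) (abs_nonneg _) hn
  have h2 : |u 1 * q 0| ≤ ‖u‖ * K := by
    rw [abs_mul]; exact mul_le_mul (hu 1) (hqi 0) (abs_nonneg _) hn
  have h3 : |(u 2 + u 0 * q 1 - u 1 * q 0) / 2| ≤ (‖u‖ + ‖u‖ * K + ‖u‖ * K) / 2 := by
    rw [abs_div, abs_two]
    have h4 : |u 2 + u 0 * q 1 - u 1 * q 0| ≤ |u 2| + |u 0 * q 1| + |u 1 * q 0| :=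
      (abs_sub _ _).trans (add_le_add (abs_add_le _ _) le_rfl)
    have := hu 2
    linarith
  have := hu 0
  have := hu 1
  nlinarith

/-- a symmetric bilinear form which is small on the frame `𝒳(q), 𝒵(q), 𝒯` is small.
`u = u₀ 𝒳 + u₁ 𝒵 + ((u₂ + u₀ Z - u₁ t)/2) 𝒯`; sup norm on `Fin 3 → ℝ`. -/
theorem hsb_frame (β : (Fin 3 → ℝ) →L[ℝ] (Fin 3 → ℝ) →L[ℝ] ℝ) (hs : ∀ u w, β u w = β w u) (q : Fin 3 → ℝ) (K E : ℝ) (hK : 1 ≤ K) (hq : ‖q‖ ≤ K)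
    (h1 : |β (hsb_vT q) (hsb_vT q)| ≤ E) (h2 : |β (hsb_vT q) (hsb_vX q)| ≤ E) (h3 : |β (hsb_vT q) (hsb_vZ q)| ≤ E)
    (h4 : |β (hsb_vX q) (hsb_vX q)| ≤ E) (h5 : |β (hsb_vZ q) (hsb_vZ q)| ≤ E) (h6 : |β (hsb_vX q) (hsb_vZ q)| ≤ E) (u w : Fin 3 → ℝ) :
    |β u w| ≤ 16 * K ^ 2 * E * ‖u‖ * ‖w‖ := by
  have hE : 0 ≤ E := (abs_nonneg _).trans h1
  obtain ⟨a, ha⟩ : ∃ a : ℝ, a = (u 2 + u 0 * q 1 - u 1 * q 0) / 2 := ⟨_, rfl⟩
  obtain ⟨b, hb⟩ : ∃ b : ℝ, b = (w 2 + w 0 * q 1 - w 1 * q 0) / 2 := ⟨_, rfl⟩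
  have hu := hsb_frame_coef q u K hK hq
  have hw := hsb_frame_coef q w K hK hq
  rw [← ha] at hu
  rw [← hb] at hw
  have e : β u w = u 0 * w 0 * β (hsb_vX q) (hsb_vX q) + u 0 * w 1 * β (hsb_vX q) (hsb_vZ q) + u 0 * b * β (hsb_vT q) (hsb_vX q)
      + u 1 * w 0 * β (hsb_vX q) (hsb_vZ q) + u 1 * w 1 * β (hsb_vZ q) (hsb_vZ q) + u 1 * b * β (hsb_vT q) (hsb_vZ q)
      + a * w 0 * β (hsb_vT q) (hsb_vX q) + a * w 1 * β (hsb_vT q) (hsb_vZ q) + a * b * β (hsb_vT q) (hsb_vT q) := by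
    conv_lhs => rw [hsb_frame_dec q u, hsb_frame_dec q w, ← ha, ← hb]
    simp only [map_add, map_smul, add_apply, smul_apply, smul_eq_mul]
    rw [hs (hsb_vX q) (hsb_vT q), hs (hsb_vZ q) (hsb_vT q), hs (hsb_vZ q) (hsb_vX q)]
    ring
  have t : ∀ x y z : ℝ, |z| ≤ E → |x * y * z| ≤ |x| * |y| * E := by
    intro x y z hz
    rw [abs_mul, abs_mul]
    exact mul_le_mul_of_nonneg_left hz (by positivity)
  have hsum : |β u w| ≤ (|u 0| + |u 1| + |a|) * (|w 0| + |w 1| + |b|) * E := by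
    rw [e]
    have s1 := t (u 0) (w 0) _ h4
    have s2 := t (u 0) (w 1) _ h6
    have s3 := t (u 0) b _ h2
    have s4 := t (u 1) (w 0) _ h6
    have s5 := t (u 1) (w 1) _ h5
    have s6 := t (u 1) b _ h3
    have s7 := t a (w 0) _ h2
    have s8 := t a (w 1) _ h3
    have s9 := t a b _ h1
    refine (abs_add_le _ _).trans ?_
    refine (add_le_add ((abs_add_le _ _).trans (add_le_add ((abs_add_le _ _).trans (add_le_add ((abs_add_le _ _).trans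
      (add_le_add ((abs_add_le _ _).trans (add_le_add ((abs_add_le _ _).trans (add_le_add ((abs_add_le _ _).trans
      (add_le_add ((abs_add_le _ _).trans (add_le_add s1 s2)) s3)) s4)) s5)) s6)) s7)) s8)) s9).trans (le_of_eq ?_)
    ring
  refine hsum.trans ?_
  have h0u : 0 ≤ |u 0| + |u 1| + |a| := by positivity
  have h0w : 0 ≤ |w 0| + |w 1| + |b| := by positivity
  calc (|u 0| + |u 1| + |a|) * (|w 0| + |w 1| + |b|) * E ≤ (4 * K * ‖u‖) * (4 * K * ‖w‖) * E := by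
        gcongr
    _ = _ := by ring

/-- **EXIT 1**: the Hessian of `f` at `q` from `A, B, C` and their horizontal derivatives of order `≤ 2` at `q`. -/
theorem hsb_hessian {U : Set (Fin 3 → ℝ)} (hU : IsOpen U) {f : (Fin 3 → ℝ) → ℝ} (hf : ContDiffOn ℝ 4 f U) {q : Fin 3 → ℝ} (hq : q ∈ U)
    (K E : ℝ) (hK : 1 ≤ K) (hqK : ‖q‖ ≤ K)
    (hA : |hsb_A f q| ≤ E) (hB : |hsb_B f q| ≤ E) (hC : |hsb_C f q| ≤ E)
    (hXC : |hsb_X (hsb_C f) q| ≤ E) (hZA : |hsb_Z (hsb_A f) q| ≤ E) (hZC : |hsb_Z (hsb_C f) q| ≤ E) (hXB : |hsb_X (hsb_B f) q| ≤ E)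
    (hXXB : |hsb_X (hsb_X (hsb_B f)) q| ≤ E) (hZZA : |hsb_Z (hsb_Z (hsb_A f)) q| ≤ E) (hCC : |hsb_C (hsb_C f) q| ≤ E) (u w : Fin 3 → ℝ) :
    |hsb_H f q u w| ≤ 32 * K ^ 2 * E * ‖u‖ * ‖w‖ := by
  have f3 : ContDiffOn ℝ 3 f U := hf.of_le (by norm_num)
  have f2 : ContDiffOn ℝ 2 f U := hf.of_le (by norm_num)
  obtain ⟨s1, s2, s3, s4, s5, s6⟩ := hsb_six hU f2 hq
  have t1 : 3 * hsb_T (hsb_X f) q = hsb_X (hsb_C f) q - 2 * hsb_Z (hsb_A f) q := hsb_TX hU f3 hq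
  have t2 : -3 * hsb_T (hsb_Z f) q = hsb_Z (hsb_C f) q - 2 * hsb_X (hsb_B f) q := hsb_TZ hU f3 hq
  have t3 : 3 * hsb_T (hsb_T f) q = 2 * hsb_X (hsb_X (hsb_B f)) q + 2 * hsb_Z (hsb_Z (hsb_A f)) q - hsb_C (hsb_C f) q := hsb_TT hU hf hq
  have hE : 0 ≤ E := (abs_nonneg _).trans hA
  rw [abs_le] at hA hB hC hXC hZA hZC hXB hXXB hZZA hCC
  have h := hsb_frame (fderiv ℝ (fderiv ℝ f) q) (fun a b => hsb_H_symm hU f2 hq a b) q K (2 * E) hK hqK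
    (by
      show |hsb_H f q (hsb_vT q) (hsb_vT q)| ≤ 2 * E
      rw [← s1, abs_le]; constructor <;> linarith [hXXB.1, hXXB.2, hZZA.1, hZZA.2, hCC.1, hCC.2])
    (by
      show |hsb_H f q (hsb_vT q) (hsb_vX q)| ≤ 2 * E
      rw [← s2, abs_le]; constructor <;> linarith [hXC.1, hXC.2, hZA.1, hZA.2])
    (by
      show |hsb_H f q (hsb_vT q) (hsb_vZ q)| ≤ 2 * E
      rw [← s3, abs_le]; constructor <;> linarith [hZC.1, hZC.2, hXB.1, hXB.2])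
    (by
      show |hsb_H f q (hsb_vX q) (hsb_vX q)| ≤ 2 * E
      rw [← s4, abs_le]; constructor <;> linarith [hA.1, hA.2])
    (by
      show |hsb_H f q (hsb_vZ q) (hsb_vZ q)| ≤ 2 * E
      rw [← s5, abs_le]; constructor <;> linarith [hB.1, hB.2])
    (by
      show |hsb_H f q (hsb_vX q) (hsb_vZ q)| ≤ 2 * E
      rw [abs_le]; constructor <;> linarith [hC.1, hC.2])
    u w
  refine h.trans (le_of_eq ?_)
  ring

/-! ## 5. Derivatives along straight lines      (leaf L-252-HEIS-5) -/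

/-- first order -/
theorem hsb_D_line {g : (Fin 3 → ℝ) → ℝ} {q : Fin 3 → ℝ} (hg : DifferentiableAt ℝ g q) (V : (Fin 3 → ℝ) → (Fin 3 → ℝ)) :
    hsb_D V g q = deriv (fun s : ℝ => g (q + s • V q)) 0 := by
  have h1 : HasDerivAt (fun s : ℝ => q + s • V q) (V q) 0 := by
    simpa using ((hasDerivAt_id (0 : ℝ)).smul_const (V q)).const_add q
  have h2 : HasFDerivAt g (fderiv ℝ g q) (q + (0 : ℝ) • V q) := by
    simpa using hg.hasFDerivAt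
  exact (h2.comp_hasDerivAt (0 : ℝ) h1).deriv.symm

/-- second order -/
theorem hsb_H_line {U : Set (Fin 3 → ℝ)} (hU : IsOpen U) {g : (Fin 3 → ℝ) → ℝ} (hg : ContDiffOn ℝ 2 g U) {q : Fin 3 → ℝ} (hq : q ∈ U) (v : Fin 3 → ℝ) :
    hsb_H g q v v = iteratedDeriv 2 (fun s : ℝ => g (q + s • v)) 0 := by
  have hline : ∀ s : ℝ, HasDerivAt (fun s : ℝ => q + s • v) v s := fun s => by
    simpa using ((hasDerivAt_id s).smul_const v).const_add q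
  have hcont : Continuous (fun s : ℝ => q + s • v) := by fun_prop
  have hmem : ∀ᶠ s : ℝ in nhds 0, q + s • v ∈ U := by
    have h0 : q + (0 : ℝ) • v ∈ U := by simpa using hq
    exact hcont.continuousAt.eventually_mem (hU.mem_nhds h0)
  have hd1 : (deriv fun s : ℝ => g (q + s • v)) =ᶠ[nhds 0] fun s : ℝ => fderiv ℝ g (q + s • v) v := by
    filter_upwards [hmem] with s hs
    have hdg : DifferentiableAt ℝ g (q + s • v) :=
      ((hg.contDiffAt (hU.mem_nhds hs)).differentiableAt (by norm_num))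
    exact (hdg.hasFDerivAt.comp_hasDerivAt s (hline s)).deriv
  have hdd : DifferentiableAt ℝ (fderiv ℝ g) q := by
    have h1 : ContDiffAt ℝ 1 (fderiv ℝ g) q :=
      (hg.contDiffAt (hU.mem_nhds hq)).fderiv_right (m := 1) (by norm_num)
    exact h1.differentiableAt (by norm_num)
  have h2 : HasFDerivAt (fderiv ℝ g) (fderiv ℝ (fderiv ℝ g) q) (q + (0 : ℝ) • v) := by
    simpa using hdd.hasFDerivAt
  have h3 : HasDerivAt (fun s : ℝ => fderiv ℝ g (q + s • v)) (fderiv ℝ (fderiv ℝ g) q v) 0 :=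
    h2.comp_hasDerivAt (0 : ℝ) (hline 0)
  have h4 : HasDerivAt (fun s : ℝ => fderiv ℝ g (q + s • v) v) (fderiv ℝ (fderiv ℝ g) q v v) 0 := by
    have := h3.clm_apply (hasDerivAt_const (0 : ℝ) v)
    simpa using this
  rw [show (2 : ℕ) = 1 + 1 from rfl, iteratedDeriv_succ, iteratedDeriv_one, hd1.deriv_eq, h4.deriv]
  rfl

/-- **EXIT 2**: `A, B, C` have derivatives of order `j ≤ 2` along ALL straight lines through `q` bounded by `E ‖v‖^j`. -/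
theorem hsb_hessian_dir {U : Set (Fin 3 → ℝ)} (hU : IsOpen U) {f : (Fin 3 → ℝ) → ℝ} (hf : ContDiffOn ℝ 4 f U) {q : Fin 3 → ℝ} (hq : q ∈ U)
    (K E : ℝ) (hK : 1 ≤ K) (hqK : ‖q‖ ≤ K)
    (hA : ∀ j ≤ 2, ∀ v : Fin 3 → ℝ, |iteratedDeriv j (fun s : ℝ => hsb_A f (q + s • v)) 0| ≤ E * ‖v‖ ^ j)
    (hB : ∀ j ≤ 2, ∀ v : Fin 3 → ℝ, |iteratedDeriv j (fun s : ℝ => hsb_B f (q + s • v)) 0| ≤ E * ‖v‖ ^ j)
    (hC : ∀ j ≤ 2, ∀ v : Fin 3 → ℝ, |iteratedDeriv j (fun s : ℝ => hsb_C f (q + s • v)) 0| ≤ E * ‖v‖ ^ j) (u w : Fin 3 → ℝ) :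
    |hsb_H f q u w| ≤ 200 * K ^ 4 * E * ‖u‖ * ‖w‖ := by
  have hK0 : (0 : ℝ) ≤ K := by linarith
  have hE : 0 ≤ E := by
    have := hA 0 (by norm_num) 0
    simp only [pow_zero, mul_one] at this
    exact (abs_nonneg _).trans this
  have hK2 : 1 ≤ K ^ 2 := by nlinarith
  have hEK : E ≤ 6 * K ^ 2 * E := by nlinarith
  have hEK1 : E * K ≤ 6 * K ^ 2 * E := by nlinarith [mul_nonneg hE hK0, mul_nonneg hE (sub_nonneg.2 hK)]
  have hEK2 : E * K ^ 2 ≤ 6 * K ^ 2 * E := by nlinarith [mul_nonneg hE (sq_nonneg K)]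
  -- smoothness
  have hf4 : ContDiffOn ℝ ((3 + 1 : ℕ) : WithTop ℕ∞) f U := by exact_mod_cast hf
  have hXf : ContDiffOn ℝ ((2 + 1 : ℕ) : WithTop ℕ∞) (hsb_X f) U := hsb_D_contDiffOn hU hsb_vX_contDiff 3 hf4
  have hZf : ContDiffOn ℝ ((2 + 1 : ℕ) : WithTop ℕ∞) (hsb_Z f) U := hsb_D_contDiffOn hU hsb_vZ_contDiff 3 hf4
  have hAs : ContDiffOn ℝ 2 (hsb_A f) U := by
    have := hsb_D_contDiffOn hU hsb_vX_contDiff 2 hXf
    exact_mod_cast this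
  have hBs : ContDiffOn ℝ 2 (hsb_B f) U := by
    have := hsb_D_contDiffOn hU hsb_vZ_contDiff 2 hZf
    exact_mod_cast this
  have hCs : ContDiffOn ℝ 2 (hsb_C f) U := by
    have h1 := hsb_D_contDiffOn hU hsb_vX_contDiff 2 hZf
    have h2 := hsb_D_contDiffOn hU hsb_vZ_contDiff 2 hXf
    have := h1.add h2
    exact_mod_cast this
  have hdiff : ∀ {g : (Fin 3 → ℝ) → ℝ}, ContDiffOn ℝ 2 g U → DifferentiableAt ℝ g q := fun hg =>
    (hg.contDiffAt (hU.mem_nhds hq)).differentiableAt (by norm_num)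
  -- norms of the frame
  have hq0 : |q 0| ≤ K := (norm_le_pi_norm q 0).trans hqK
  have hq1 : |q 1| ≤ K := (norm_le_pi_norm q 1).trans hqK
  have hnX : ‖hsb_vX q‖ ≤ K := by
    rw [pi_norm_le_iff_of_nonneg hK0]
    intro i
    fin_cases i
    · simpa [hsb_vX] using hK
    · simpa [hsb_vX] using hK0
    · simpa [hsb_vX] using hq1
  have hnZ : ‖hsb_vZ q‖ ≤ K := by
    rw [pi_norm_le_iff_of_nonneg hK0]
    intro i
    fin_cases i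
    · simpa [hsb_vZ] using hK0
    · simpa [hsb_vZ] using hK
    · simpa [hsb_vZ] using hq0
  have hnXZ : ‖hsb_vX q + hsb_vZ q‖ ≤ 2 * K := (norm_add_le _ _).trans (by linarith)
  -- order 0, 1, 2 along lines
  have ord0 : ∀ {g : (Fin 3 → ℝ) → ℝ},
      (∀ j ≤ 2, ∀ v : Fin 3 → ℝ, |iteratedDeriv j (fun s : ℝ => g (q + s • v)) 0| ≤ E * ‖v‖ ^ j) → |g q| ≤ 6 * K ^ 2 * E := by
    intro g hg
    have := hg 0 (by norm_num) 0
    simp only [iteratedDeriv_zero, pow_zero, mul_one, smul_zero, add_zero] at this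
    exact this.trans hEK
  have ord1 : ∀ {g : (Fin 3 → ℝ) → ℝ}, ContDiffOn ℝ 2 g U →
      (∀ j ≤ 2, ∀ v : Fin 3 → ℝ, |iteratedDeriv j (fun s : ℝ => g (q + s • v)) 0| ≤ E * ‖v‖ ^ j) →
      ∀ V : (Fin 3 → ℝ) → (Fin 3 → ℝ), ‖V q‖ ≤ K → |hsb_D V g q| ≤ 6 * K ^ 2 * E := by
    intro g hs hg V hV
    have := hg 1 (by norm_num) (V q)
    rw [iteratedDeriv_one, ← hsb_D_line (hdiff hs) V, pow_one] at this
    exact this.trans ((mul_le_mul_of_nonneg_left hV hE).trans hEK1)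
  have ord2 : ∀ {g : (Fin 3 → ℝ) → ℝ}, ContDiffOn ℝ 2 g U →
      (∀ j ≤ 2, ∀ v : Fin 3 → ℝ, |iteratedDeriv j (fun s : ℝ => g (q + s • v)) 0| ≤ E * ‖v‖ ^ j) →
      ∀ (v : Fin 3 → ℝ) (R : ℝ), ‖v‖ ≤ R → |hsb_H g q v v| ≤ E * R ^ 2 := by
    intro g hs hg v R hv
    have := hg 2 le_rfl v
    rw [← hsb_H_line hU hs hq v] at this
    exact this.trans (mul_le_mul_of_nonneg_left (pow_le_pow_left₀ (norm_nonneg _) hv 2) hE)
  have sixA := hsb_six hU hAs hq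
  have sixB := hsb_six hU hBs hq
  have sixC := hsb_six hU hCs hq
  have hXXB : |hsb_X (hsb_X (hsb_B f)) q| ≤ 6 * K ^ 2 * E := by
    have e : hsb_X (hsb_X (hsb_B f)) q = hsb_H (hsb_B f) q (hsb_vX q) (hsb_vX q) := sixB.2.2.2.1
    rw [e]
    exact (ord2 hBs hB _ K hnX).trans hEK2
  have hZZA : |hsb_Z (hsb_Z (hsb_A f)) q| ≤ 6 * K ^ 2 * E := by
    have e : hsb_Z (hsb_Z (hsb_A f)) q = hsb_H (hsb_A f) q (hsb_vZ q) (hsb_vZ q) := sixA.2.2.2.2.1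
    rw [e]
    exact (ord2 hAs hA _ K hnZ).trans hEK2
  have hCC : |hsb_C (hsb_C f) q| ≤ 6 * K ^ 2 * E := by
    rw [sixC.2.2.2.2.2]
    have hsym := hsb_H_symm hU hCs hq (hsb_vZ q) (hsb_vX q)
    have hpol : 2 * hsb_H (hsb_C f) q (hsb_vX q) (hsb_vZ q)
        = hsb_H (hsb_C f) q (hsb_vX q + hsb_vZ q) (hsb_vX q + hsb_vZ q)
          - hsb_H (hsb_C f) q (hsb_vX q) (hsb_vX q) - hsb_H (hsb_C f) q (hsb_vZ q) (hsb_vZ q) := by
      unfold hsb_H at hsym ⊢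
      simp only [map_add, add_apply]
      rw [hsym]
      ring
    rw [hpol]
    have b1 := ord2 hCs hC _ (2 * K) hnXZ
    have b2 := ord2 hCs hC _ K hnX
    have b3 := ord2 hCs hC _ K hnZ
    have e4 : E * (2 * K) ^ 2 = 4 * (E * K ^ 2) := by ring
    have e6 : 6 * K ^ 2 * E = 6 * (E * K ^ 2) := by ring
    rw [e4] at b1
    rw [e6]
    generalize hsb_H (hsb_C f) q (hsb_vX q + hsb_vZ q) (hsb_vX q + hsb_vZ q) = a1 at b1 ⊢
    generalize hsb_H (hsb_C f) q (hsb_vX q) (hsb_vX q) = a2 at b2 ⊢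
    generalize hsb_H (hsb_C f) q (hsb_vZ q) (hsb_vZ q) = a3 at b3 ⊢
    generalize E * K ^ 2 = M at b1 b2 b3 ⊢
    have c1 := abs_le.1 b1
    have c2 := abs_le.1 b2
    have c3 := abs_le.1 b3
    rw [abs_le]
    constructor <;> linarith [c1.1, c1.2, c2.1, c2.2, c3.1, c3.2]
  have key := hsb_hessian hU hf hq K (6 * K ^ 2 * E) hK hqK (ord0 hA) (ord0 hB) (ord0 hC)
    (ord1 hCs hC hsb_vX hnX) (ord1 hAs hA hsb_vZ hnZ) (ord1 hCs hC hsb_vZ hnZ) (ord1 hBs hB hsb_vX hnX) hXXB hZZA hCC u w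
  refine key.trans ?_
  have hnn : 0 ≤ K ^ 4 * E * ‖u‖ * ‖w‖ := by positivity
  nlinarith

end

end Claimed.Agent.R252
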